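import Vale.Agent.H39.D4.Defs

/-!
TASK D4-MERGE (statement kept exactly; helper lemmas in this file, names starting `mrg_`).

Substituting variables does not raise the degree: if `coef F S = 0` for all `|S| > d` and
`φ : Fin n → Fin m` is ANY map, then `G y = F (fun i => y (φ i))` has `coef G T = 0` for
`|T| > d`.

Proof.  For `S : Finset (Fin n)` let `mrg_par φ S : Finset (Fin m)` be the set of `j` with an odd
number of `i ∈ S`, `φ i = j`.  Then `chi S (fun i => y (φ i)) = chi (mrg_par φ S) y` and
the cardinality of `mrg_par φ S` is at most that of `S`.  Orthogonality of characters on the `m`-cube gives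
`coef G T = ∑ S, coef F S * (if mrg_par φ S = T then 1 else 0)`, and every `S` with
`mrg_par φ S = T`, `d < T.card` has `d < S.card`, so `coef F S = 0`.
-/

namespace Vale.Agent.H39

open Finset

/-- The parity image of `S` under `φ`: the `j` hit an odd number of times. -/
def mrg_par {n m : ℕ} (φ : Fin n → Fin m) (S : Finset (Fin n)) : Finset (Fin m) :=
  Finset.univ.filter (fun j => Odd (S.filter (fun i => φ i = j)).card)

lemma mrg_bsign_pow (b : Bool) (c : ℕ) : bsign b ^ c = if Odd c then bsign b else 1 := by
  split_ifs with h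
  · obtain ⟨k, rfl⟩ := h
    rw [pow_succ, pow_mul, pow_two, bsign_mul_self, one_pow, one_mul]
  · rw [Nat.not_odd_iff_even] at h
    obtain ⟨k, rfl⟩ := h
    rw [← two_mul, pow_mul, pow_two, bsign_mul_self, one_pow]

lemma mrg_chi_comp {n m : ℕ} (φ : Fin n → Fin m) (S : Finset (Fin n)) (y : Fin m → Bool) :
    chi S (fun i => y (φ i)) = chi (mrg_par φ S) y := by
  unfold chi mrg_par
  rw [Finset.prod_filter]
  rw [← Finset.prod_fiberwise_of_maps_to (s := S) (t := Finset.univ) (g := φ)
    (fun i _ => Finset.mem_univ _)]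
  apply Finset.prod_congr rfl
  intro j _
  rw [← mrg_bsign_pow, ← Finset.prod_const]
  apply Finset.prod_congr rfl
  intro i hi
  show bsign (y (φ i)) = bsign (y j)
  rw [(Finset.mem_filter.mp hi).2]

lemma mrg_card_par {n m : ℕ} (φ : Fin n → Fin m) (S : Finset (Fin n)) :
    (mrg_par φ S).card ≤ S.card := by
  have hsub : mrg_par φ S ⊆ S.image φ := by
    intro j hj
    have hodd : Odd (S.filter (fun i => φ i = j)).card := (Finset.mem_filter.mp hj).2
    have hpos : 0 < (S.filter (fun i => φ i = j)).card := hodd.pos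
    obtain ⟨i, hi⟩ := Finset.card_pos.mp hpos
    rw [Finset.mem_filter] at hi
    exact Finset.mem_image.mpr ⟨i, hi.1, hi.2⟩
  exact (Finset.card_le_card hsub).trans Finset.card_image_le

lemma mrg_chi_orth {m : ℕ} (S T : Finset (Fin m)) :
    ∑ y : Fin m → Bool, chi S y * chi T y = if S = T then (2 : ℝ) ^ m else 0 := by
  have h := Ebias_phi_mul_phi (n := m) 0 S T
  have hwt : ∀ y : Fin m → Bool, wt 0 y = 1 / (2 : ℝ) ^ m := by
    intro y
    simp [wt]
  have hphi : ∀ (U : Finset (Fin m)) (y : Fin m → Bool), phi 0 U y = chi U y := by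
    intro U y
    simp [phi, chi]
  have hpos : (2 : ℝ) ^ m ≠ 0 := by positivity
  unfold Ebias at h
  simp only [hwt, hphi] at h
  rw [← Finset.mul_sum] at h
  have h2 : ∑ y : Fin m → Bool, chi S y * chi T y
      = (2 : ℝ) ^ m * (1 / (2 : ℝ) ^ m * ∑ y : Fin m → Bool, chi S y * chi T y) := by
    field_simp
  rw [h2, h]
  split_ifs <;> simp

theorem coef_comp_eq_zero {n m : ℕ} (φ : Fin n → Fin m) (F : (Fin n → Bool) → ℝ) (d : ℕ)
    (hdeg : ∀ S : Finset (Fin n), d < S.card → coef F S = 0) :
    ∀ T : Finset (Fin m), d < T.card →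
      coef (fun y : Fin m → Bool => F (fun i => y (φ i))) T = 0 := by
  intro T hT
  unfold coef
  have hsum : ∑ y : Fin m → Bool, F (fun i => y (φ i)) * chi T y = 0 := by
    have h1 : ∀ y : Fin m → Bool, F (fun i => y (φ i)) * chi T y
        = ∑ S : Finset (Fin n), coef F S * (chi (mrg_par φ S) y * chi T y) := by
      intro y
      rw [coef_inversion F (fun i => y (φ i)), Finset.sum_mul]
      apply Finset.sum_congr rfl
      intro S _
      rw [mrg_chi_comp, mul_assoc]
    simp_rw [h1]
    rw [Finset.sum_comm]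
    apply Finset.sum_eq_zero
    intro S _
    rw [← Finset.mul_sum, mrg_chi_orth]
    split_ifs with hpar
    · have hcard : d < S.card := by
        have := mrg_card_par φ S
        rw [hpar] at this
        omega
      rw [hdeg S hcard, zero_mul]
    · rw [mul_zero]
  rw [hsum, zero_div]

end Vale.Agent.H39
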