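import Vale.Agent.H39.LevelOne

/-!
# Degree four: layer sums of a function on the cube (definitions, seat H39)

Points of the cube are `x : Fin m → Bool` (`true` is the sign `-1`).  `hw x` is the number of
`true` coordinates, `layer G k` the sum of `G` over the points of weight `k`.  For a function of
degree at most `4` on `m ≥ 4` variables the generating polynomial `∑_k (layer G k) t^k` equals
`(1 + t)^(m-4) (e₀ + e₁ t + e₂ t² + e₃ t³ + e₄ t⁴)`; `lay m z k` is the `k`-th coefficient of
that product for integer `e = z`.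
-/

namespace Vale.Agent.H39

/-- Hamming weight: the number of `true` coordinates (coordinates of sign `-1`). -/
def hw {m : ℕ} (x : Fin m → Bool) : ℕ := (Finset.univ.filter (fun i => x i = true)).card

/-- The sum of `G` over the points of Hamming weight `k`. -/
noncomputable def layer {m : ℕ} (G : (Fin m → Bool) → ℝ) (k : ℕ) : ℝ :=
  ∑ x : Fin m → Bool, if hw x = k then G x else 0

/-- `C(N, k - i)` if `i ≤ k`, else `0`. -/
def shc (N k i : ℕ) : ℤ := if i ≤ k then ((N.choose (k - i) : ℕ) : ℤ) else 0

/-- The `k`-th coefficient of `(1 + t)^(m-4) (z₀ + z₁ t + z₂ t² + z₃ t³ + z₄ t⁴)`. -/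
def lay (m : ℕ) (z : Fin 5 → ℤ) (k : ℕ) : ℤ := ∑ i : Fin 5, z i * shc (m - 4) k i

end Vale.Agent.H39
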