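import Vale.Agent.H39.D4.Defs

/-!
TASK D4-FIN (done, statements kept exactly; helper lemmas in this file, names starting `fin_`;
the definitions `cb`, `cbs`, `restL`, `okPair` and the two tables below are not used outside
this file).

Integer profiles.  `lay m z k = ∑ i : Fin 5, z i * shc (m - 4) k i` with
`shc N k i = if i ≤ k then C(N, k - i) else 0` (Defs.lean) is the `k`-th coefficient of
the product of (1 + t)^(m-4) and z₀ + z₁ t + z₂ t² + z₃ t³ + z₄ t⁴.  We show that no integer `z` is compatible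
with the bounds `|lay m z k| ≤ C(m, k)` and certain boundary data.

How the proof goes (all numerically checked; `fin_table_b`, `fin_table_cd` compile in seconds).
* `lay m z 0 = z 0`, `lay m z 1 = z 0 * (m-4) + z 1`, `lay m z m = z 4`,
  `lay m z (m-1) = z 3 + z 4 * (m-4)` (for the finitely many `m` in question: `interval_cases m`
  and `simp [lay, shc, Fin.sum_univ_five]` / `decide`).  So `z 0, z 1, z 3, z 4` are determined by
  the hypotheses: `z 0 = e0`, `z 4 = e4`, `z 1 = (2a - m) - (m-4) e0`, `z 3 = (m - 2b) - (m-4) e4`;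
  only `z 2` is free.  From `|2a - m| ≤ m` and `|m - 2b| ≤ m` (`hbd 1`, `hbd (m-1)`) get
  `0 ≤ a ≤ m`, `0 ≤ b ≤ m`, so `a = (a.toNat : ℤ)` etc. and the tables apply.
* For `2 ≤ k`: `lay m z k = restL m (z 0) (z 1) (z 3) (z 4) k + z 2 * cbs (m-4) k 2`
  (`cbs N k i` is `shc N k i` computed with the fast binomial `cb`, `cb_eq`).
* `okPair m e0 e1 e3 e4 k1 k2 = true` says: the lower bound for `z 2` coming from
  `-C(m,k1) ≤ lay m z k1` exceeds the upper bound coming from `lay m z k2 ≤ C(m,k2)`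
  (integer division: for `c > 0`, `c * x ≤ y ↔ x ≤ y / c` is `Int.le_ediv_iff_mul_le`).
  So `okPair ... = true`, `|lay m z k1| ≤ C(m,k1)` and `|lay m z k2| ≤ C(m,k2)` are
  contradictory (`abs_le`, then `omega`/`nlinarith` after unfolding).
* The tables give such a pair k1, k2 for every profile that has to be excluded.
-/

namespace Vale.Agent.H39

/-- fast binomial coefficient -/
def cb (n k : ℕ) : ℕ := n.descFactorial k / k.factorial

theorem cb_eq (n k : ℕ) : cb n k = n.choose k :=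
  (Nat.choose_eq_descFactorial_div_factorial n k).symm

/-- `C(N, k - i)` for `i ≤ k`, else `0` (the function `shc` of Defs.lean, computed with `cb`) -/
def cbs (N k i : ℕ) : ℤ := if i ≤ k then (cb N (k - i) : ℤ) else 0

theorem cbs_eq (N k i : ℕ) : cbs N k i = shc N k i := by
  unfold cbs shc
  rw [cb_eq]

/-- the part of `lay m z k` that does not involve `z 2` -/
def restL (m : ℕ) (e0 e1 e3 e4 : ℤ) (k : ℕ) : ℤ :=
  e0 * cbs (m - 4) k 0 + e1 * cbs (m - 4) k 1 + e3 * cbs (m - 4) k 3 + e4 * cbs (m - 4) k 4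

/-- the layers `k1` (lower bound for `z 2`) and `k2` (upper bound) leave no integer `z 2` -/
def okPair (m : ℕ) (e0 e1 e3 e4 : ℤ) (k1 k2 : ℕ) : Bool :=
  decide (0 < cbs (m - 4) k1 2 ∧ 0 < cbs (m - 4) k2 2 ∧
    ((cb m k2 : ℤ) - restL m e0 e1 e3 e4 k2) / cbs (m - 4) k2 2
      < -(((cb m k1 : ℤ) + restL m e0 e1 e3 e4 k1) / cbs (m - 4) k1 2))

theorem fin_table_b : ∀ m ∈ Finset.Icc 9 16, ∀ a ∈ Finset.range (m + 1),
    ∀ b ∈ Finset.range (m + 1), 15 ≤ a + b →
    ∃ k1 ∈ Finset.range (m + 1), ∃ k2 ∈ Finset.range 8,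
      okPair m (-1) ((2 * (a : ℤ) - m) + (m - 4)) ((m - 2 * (b : ℤ)) - (m - 4)) 1 k1 k2
        = true := by
  decide +kernel

theorem fin_table_cd : ∀ e0 ∈ ({1, -1} : Finset ℤ), ∀ a ∈ Finset.range 11,
    ∀ b ∈ Finset.range 11, 18 ≤ a + b →
    ∃ k1 ∈ Finset.range 11, ∃ k2 ∈ Finset.range 8,
      okPair 10 e0 ((2 * (a : ℤ) - 10) - 6 * e0) ((10 - 2 * (b : ℤ)) - 6 * e0) e0 k1 k2
        = true := by
  decide +kernel

theorem fin_lay_eq (m : ℕ) (z : Fin 5 → ℤ) (k : ℕ) :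
    lay m z k = restL m (z 0) (z 1) (z 3) (z 4) k + z 2 * cbs (m - 4) k 2 := by
  unfold lay restL
  rw [Fin.sum_univ_five]
  simp only [cbs_eq]
  have e0 : ((0 : Fin 5) : ℕ) = 0 := rfl
  have e1 : ((1 : Fin 5) : ℕ) = 1 := rfl
  have e2 : ((2 : Fin 5) : ℕ) = 2 := rfl
  have e3 : ((3 : Fin 5) : ℕ) = 3 := rfl
  have e4 : ((4 : Fin 5) : ℕ) = 4 := rfl
  rw [e0, e1, e2, e3, e4]
  ring

theorem fin_lay_zero (m : ℕ) (z : Fin 5 → ℤ) : lay m z 0 = z 0 := by
  rw [fin_lay_eq]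
  simp [restL, cbs, cb]

theorem fin_lay_one (m : ℕ) (z : Fin 5 → ℤ) :
    lay m z 1 = z 0 * ((m - 4 : ℕ) : ℤ) + z 1 := by
  rw [fin_lay_eq]
  simp [restL, cbs, cb_eq]

theorem fin_lay_top (n : ℕ) (z : Fin 5 → ℤ) : lay (n + 4) z (n + 4) = z 4 := by
  rw [fin_lay_eq]
  have h0 : n.choose (n + 4) = 0 := Nat.choose_eq_zero_of_lt (by omega)
  have h1 : n.choose (n + 3) = 0 := Nat.choose_eq_zero_of_lt (by omega)
  have h2 : n.choose (n + 2) = 0 := Nat.choose_eq_zero_of_lt (by omega)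
  have h3 : n.choose (n + 1) = 0 := Nat.choose_eq_zero_of_lt (by omega)
  simp [restL, cbs, cb_eq, h0, h1, h2, h3]

theorem fin_lay_pred (n : ℕ) (z : Fin 5 → ℤ) :
    lay (n + 5) z (n + 4) = z 3 + z 4 * ((n : ℤ) + 1) := by
  rw [fin_lay_eq]
  have h0 : (n + 1).choose (n + 4) = 0 := Nat.choose_eq_zero_of_lt (by omega)
  have h1 : (n + 1).choose (n + 3) = 0 := Nat.choose_eq_zero_of_lt (by omega)
  have h2 : (n + 1).choose (n + 2) = 0 := Nat.choose_eq_zero_of_lt (by omega)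
  have h4 : (n + 1).choose n = n + 1 := Nat.choose_succ_self_right n
  have a1 : n + 5 - 4 = n + 1 := by omega
  simp [restL, cbs, cb_eq, a1, h0, h1, h2, h4]

theorem fin_pair_false (m : ℕ) (z : Fin 5 → ℤ) (k1 k2 : ℕ)
    (h1 : |lay m z k1| ≤ ((m.choose k1 : ℕ) : ℤ)) (h2 : |lay m z k2| ≤ ((m.choose k2 : ℕ) : ℤ))
    (hok : okPair m (z 0) (z 1) (z 3) (z 4) k1 k2 = true) : False := by
  unfold okPair at hok
  rw [decide_eq_true_eq] at hok
  obtain ⟨hc1, hc2, hlt⟩ := hok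
  rw [fin_lay_eq] at h1 h2
  simp only [cb_eq] at hlt
  have hlow : -((((m.choose k1 : ℕ) : ℤ) + restL m (z 0) (z 1) (z 3) (z 4) k1) /
      cbs (m - 4) k1 2) ≤ z 2 := by
    have h3 : -z 2 ≤ (((m.choose k1 : ℕ) : ℤ) + restL m (z 0) (z 1) (z 3) (z 4) k1) /
        cbs (m - 4) k1 2 := by
      rw [Int.le_ediv_iff_mul_le hc1]
      have := (abs_le.mp h1).1
      linarith
    linarith
  have hup : z 2 ≤ (((m.choose k2 : ℕ) : ℤ) - restL m (z 0) (z 1) (z 3) (z 4) k2) /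
      cbs (m - 4) k2 2 := by
    rw [Int.le_ediv_iff_mul_le hc2]
    have := (abs_le.mp h2).2
    linarith
  linarith

/-- Case `G(1) = -1`, `G(-1) = 1`: the numbers `a` of neighbours of the all-plus point with value
`+1` and `b` of neighbours of the all-minus point with value `-1` satisfy `a + b ≤ 14`. -/
theorem fin_b (m : ℕ) (hm9 : 9 ≤ m) (hm16 : m ≤ 16) (z : Fin 5 → ℤ) (a b : ℤ)
    (hbd : ∀ k, k ≤ m → |lay m z k| ≤ ((m.choose k : ℕ) : ℤ))
    (h0 : lay m z 0 = -1) (hm : lay m z m = 1)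
    (h1 : lay m z 1 = 2 * a - (m : ℤ)) (hp : lay m z (m - 1) = (m : ℤ) - 2 * b) :
    a + b ≤ 14 := by
  by_contra hcon
  have hab : 15 ≤ a + b := by omega
  obtain ⟨n, rfl⟩ : ∃ n, m = n + 5 := ⟨m - 5, by omega⟩
  have hz0 : z 0 = -1 := by rw [← fin_lay_zero (n + 5) z]; exact h0
  have hz4 : z 4 = 1 := by rw [← fin_lay_top (n + 1) z]; exact hm
  have hz1 : z 1 = (2 * a - ((n + 5 : ℕ) : ℤ)) + (((n + 5 : ℕ) : ℤ) - 4) := by
    have := fin_lay_one (n + 5) z
    rw [h1, hz0] at this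
    have a1 : n + 5 - 4 = n + 1 := by omega
    rw [a1] at this
    push_cast at this ⊢
    linarith
  have hz3 : z 3 = (((n + 5 : ℕ) : ℤ) - 2 * b) - (((n + 5 : ℕ) : ℤ) - 4) := by
    have := fin_lay_pred n z
    have a1 : n + 5 - 1 = n + 4 := by omega
    rw [a1] at hp
    rw [hp, hz4] at this
    push_cast at this ⊢
    linarith
  have hb1 := hbd 1 (by omega)
  have hbp := hbd (n + 5 - 1) (by omega)
  have a2 : n + 5 - 1 = n + 4 := by omega
  rw [a2] at hbp hp
  rw [h1, Nat.choose_one_right] at hb1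
  rw [hp, Nat.choose_succ_self_right (n + 4)] at hbp
  have ha0 : 0 ≤ a := by have := (abs_le.mp hb1).1; push_cast at this; linarith
  have ham : a ≤ ((n + 5 : ℕ) : ℤ) := by have := (abs_le.mp hb1).2; push_cast at this ⊢; linarith
  have hb0 : 0 ≤ b := by have := (abs_le.mp hbp).2; push_cast at this; linarith
  have hbm : b ≤ ((n + 5 : ℕ) : ℤ) := by have := (abs_le.mp hbp).1; push_cast at this ⊢; linarith
  obtain ⟨k1, hk1, k2, hk2, hok⟩ := fin_table_b (n + 5) (Finset.mem_Icc.mpr ⟨hm9, hm16⟩)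
    a.toNat (Finset.mem_range.mpr (by omega)) b.toNat (Finset.mem_range.mpr (by omega))
    (by omega)
  rw [Int.toNat_of_nonneg ha0, Int.toNat_of_nonneg hb0] at hok
  have key : okPair (n + 5) (z 0) (z 1) (z 3) (z 4) k1 k2 = true := by
    rw [hz0, hz1, hz3, hz4]; exact hok
  exact fin_pair_false (n + 5) z k1 k2 (hbd k1 (by have := Finset.mem_range.mp hk1; omega))
    (hbd k2 (by have := Finset.mem_range.mp hk2; omega)) key

/-- Case `G(1) = G(-1)` on `10` variables: `a + b ≤ 17`. -/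
theorem fin_cd (z : Fin 5 → ℤ) (a b : ℤ)
    (hbd : ∀ k, k ≤ 10 → |lay 10 z k| ≤ ((Nat.choose 10 k : ℕ) : ℤ))
    (h0 : lay 10 z 0 = lay 10 z 10) (h0' : lay 10 z 0 = 1 ∨ lay 10 z 0 = -1)
    (h1 : lay 10 z 1 = 2 * a - 10) (hp : lay 10 z 9 = 10 - 2 * b) :
    a + b ≤ 17 := by
  by_contra hcon
  have hab : 18 ≤ a + b := by omega
  have hz0 : lay 10 z 0 = z 0 := fin_lay_zero 10 z
  have hz4 : lay 10 z 10 = z 4 := fin_lay_top 6 z
  have hl1 := fin_lay_one 10 z
  have hl9 := fin_lay_pred 5 z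
  rw [h1] at hl1
  rw [hp] at hl9
  rw [hz0, hz4] at h0
  rw [hz0] at h0'
  have hmem : z 0 ∈ ({1, -1} : Finset ℤ) := by
    rcases h0' with h | h <;> simp [h]
  have hz1 : z 1 = (2 * a - 10) - 6 * z 0 := by
    norm_num at hl1; linarith
  have hz3 : z 3 = (10 - 2 * b) - 6 * z 0 := by
    rw [← h0] at hl9; norm_num at hl9; linarith
  have hb1 := hbd 1 (by omega)
  have hbp := hbd 9 (by omega)
  rw [h1] at hb1
  rw [hp] at hbp
  have c1 : Nat.choose 10 1 = 10 := by decide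
  have c9 : Nat.choose 10 9 = 10 := by decide
  rw [c1] at hb1
  rw [c9] at hbp
  have ha0 : 0 ≤ a := by have := (abs_le.mp hb1).1; push_cast at this; linarith
  have ham : a ≤ 10 := by have := (abs_le.mp hb1).2; push_cast at this; linarith
  have hb0 : 0 ≤ b := by have := (abs_le.mp hbp).2; push_cast at this; linarith
  have hbm : b ≤ 10 := by have := (abs_le.mp hbp).1; push_cast at this; linarith
  obtain ⟨k1, hk1, k2, hk2, hok⟩ := fin_table_cd (z 0) hmem
    a.toNat (Finset.mem_range.mpr (by omega)) b.toNat (Finset.mem_range.mpr (by omega))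
    (by omega)
  rw [Int.toNat_of_nonneg ha0, Int.toNat_of_nonneg hb0] at hok
  have key : okPair 10 (z 0) (z 1) (z 3) (z 4) k1 k2 = true := by
    rw [hz1, hz3, ← h0]; exact hok
  exact fin_pair_false 10 z k1 k2 (hbd k1 (by have := Finset.mem_range.mp hk1; omega))
    (hbd k2 (by have := Finset.mem_range.mp hk2; omega)) key

end Vale.Agent.H39
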