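import Vale.Agent.H39.D4.Defs

/-!
TASK D4-GENFUN (replace the `sorry`, keep the statement exactly; helper lemmas in this file,
names starting `gfn_`).

Generating function of the layer structure.  For every real `t`
`∑_x t^(hw x) G x = ∑_S coef G S (1 - t)^|S| (1 + t)^(m - |S|)`.

Proof sketch.  By `coef_inversion G x : G x = ∑ S, coef G S * chi S x` (BiasPoly.lean) it is
enough to show for each `S`:  `∑_x t^(hw x) * chi S x = (1 - t)^|S| (1 + t)^(m - |S|)`.
Write `t^(hw x) = ∏ i, (if x i then t else 1)` (`Finset.prod_ite`/`Finset.prod_pow_boole`-style: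
`hw x` is the card of the filter) and `chi S x = ∏ i, (if i ∈ S then bsign (x i) else 1)`
(`Finset.prod_ite_mem`, as in `phi_eq_prod_univ`).  Then `sum_cube_prod` (BiasPoly.lean:
`∑ x, ∏ i, h i (x i) = ∏ i, (h i false + h i true)`) with
`h i b = (if b then t else 1) * (if i ∈ S then bsign b else 1)` gives
`∏ i, (1 + t * (if i ∈ S then -1 else 1)) = ∏ i, (if i ∈ S then 1 - t else 1 + t)
   = (1 - t)^|S| * (1 + t)^(m - |S|)` (`Finset.prod_ite`, `Finset.filter_mem_eq_inter`,
`Finset.card_univ_diff` / `Finset.card_compl`).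
-/

namespace Vale.Agent.H39

lemma gfn_pow_hw {m : ℕ} (t : ℝ) (x : Fin m → Bool) :
    t ^ hw x = ∏ i : Fin m, (if x i = true then t else 1) := by
  rw [hw, Finset.prod_ite, Finset.prod_const, Finset.prod_const_one, mul_one]

lemma gfn_chi {m : ℕ} (S : Finset (Fin m)) (x : Fin m → Bool) :
    chi S x = ∏ i : Fin m, (if i ∈ S then bsign (x i) else 1) := by
  rw [chi, Finset.prod_ite_mem, Finset.univ_inter]

lemma gfn_card_compl {m : ℕ} (S : Finset (Fin m)) :
    (Finset.univ.filter (fun i => ¬ i ∈ S)).card = m - S.card := by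
  have h : Finset.univ.filter (fun i => ¬ i ∈ S) = Sᶜ := by
    ext i
    simp
  rw [h, Finset.card_compl, Fintype.card_fin]

lemma gfn_single {m : ℕ} (S : Finset (Fin m)) (t : ℝ) :
    ∑ x : Fin m → Bool, t ^ hw x * chi S x = (1 - t) ^ S.card * (1 + t) ^ (m - S.card) := by
  have h1 : ∀ x : Fin m → Bool, t ^ hw x * chi S x
      = ∏ i : Fin m, ((if x i = true then t else 1) * (if i ∈ S then bsign (x i) else 1)) := by
    intro x
    rw [gfn_pow_hw, gfn_chi, Finset.prod_mul_distrib]
  simp_rw [h1]
  rw [sum_cube_prod (fun i b => (if b = true then t else 1) * (if i ∈ S then bsign b else 1))]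
  have h2 : ∀ i : Fin m, ((if false = true then t else 1) * (if i ∈ S then bsign false else 1)
      + (if true = true then t else 1) * (if i ∈ S then bsign true else 1))
      = if i ∈ S then 1 - t else 1 + t := by
    intro i
    by_cases hi : i ∈ S
    · simp [hi]
      ring
    · simp [hi]
  refine (Finset.prod_congr rfl (fun i _ => h2 i)).trans ?_
  rw [Finset.prod_ite, Finset.prod_const, Finset.prod_const, Finset.filter_mem_eq_inter,
    Finset.univ_inter, gfn_card_compl]

theorem genfun {m : ℕ} (G : (Fin m → Bool) → ℝ) (t : ℝ) :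
    ∑ x : Fin m → Bool, t ^ hw x * G x
      = ∑ S : Finset (Fin m), coef G S * ((1 - t) ^ S.card * (1 + t) ^ (m - S.card)) := by
  have h : ∀ x : Fin m → Bool,
      t ^ hw x * G x = ∑ S : Finset (Fin m), coef G S * (t ^ hw x * chi S x) := by
    intro x
    conv_lhs => rw [coef_inversion G x]
    rw [Finset.mul_sum]
    apply Finset.sum_congr rfl
    intro S _
    ring
  simp_rw [h]
  rw [Finset.sum_comm]
  apply Finset.sum_congr rfl
  intro S _
  rw [← Finset.mul_sum, gfn_single]

end Vale.Agent.H39
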