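import Vale.Agent.H39.D4.Defs

/-!
# The level-one sum of a function of degree at most four (seat H39)

For a real function `F` of degree at most `4` on the cube, the bias polynomial
`P(ρ) = ∑_S F^(S) ρ^|S|` is a quartic, so `4 P'(0) = 3 (P(1) - P(-1)) - (P'(1) + P'(-1))`.
Here `P(1) = F(+)`, `P(-1) = F(-)` are the values at the two constant points and `P'(±1)` are
sums of discrete derivatives there, which gives `levelOne_identity`.
-/

namespace Vale.Agent.H39

open Finset

variable {n : ℕ}

lemma wt_one (x : Fin n → Bool) : wt 1 x = if x = (fun _ => false) then 1 else 0 := by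
  unfold wt
  split_ifs with h
  · subst h
    simp
  · obtain ⟨i, hi⟩ := Function.ne_iff.mp h
    apply Finset.prod_eq_zero (Finset.mem_univ i)
    have hx : x i = true := by simpa using hi
    simp [hx]

lemma wt_neg_one (x : Fin n → Bool) : wt (-1) x = if x = (fun _ => true) then 1 else 0 := by
  unfold wt
  split_ifs with h
  · subst h
    simp
  · obtain ⟨i, hi⟩ := Function.ne_iff.mp h
    apply Finset.prod_eq_zero (Finset.mem_univ i)
    have hx : x i = false := by simpa using hi
    simp [hx]

lemma Ebias_one (G : (Fin n → Bool) → ℝ) : Ebias 1 G = G (fun _ => false) := by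
  unfold Ebias
  simp only [wt_one, ite_mul, one_mul, zero_mul, Finset.sum_ite_eq', Finset.mem_univ, if_true]

lemma Ebias_neg_one (G : (Fin n → Bool) → ℝ) : Ebias (-1) G = G (fun _ => true) := by
  unfold Ebias
  simp only [wt_neg_one, ite_mul, one_mul, zero_mul, Finset.sum_ite_eq', Finset.mem_univ, if_true]

/-- For a real polynomial of degree at most four,
`4 P'(0) = 3 (P(1) - P(-1)) - (P'(1) + P'(-1))`. -/
lemma quartic_identity (P : Polynomial ℝ) (hP : P.natDegree ≤ 4) :
    4 * P.derivative.eval 0
      = 3 * (P.eval 1 - P.eval (-1)) - (P.derivative.eval 1 + P.derivative.eval (-1)) := by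
  obtain ⟨c, hc⟩ : ∃ c : ℕ → ℝ, P = ∑ i ∈ Finset.range 5, Polynomial.monomial i (c i) :=
    ⟨P.coeff, Polynomial.as_sum_range' P 5 (by omega)⟩
  subst hc
  simp only [Finset.sum_range_succ, Finset.sum_range_zero, Polynomial.derivative_add,
    Polynomial.eval_add, Polynomial.derivative_monomial, Polynomial.eval_monomial]
  norm_num
  ring

/-- **Level-one identity in degree at most four**: eight times the sum of the level-one
coefficients is expressed by the values of `F` at the two constant points and at their
neighbours. -/
theorem levelOne_identity (F : (Fin n → Bool) → ℝ)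
    (hdeg : ∀ S : Finset (Fin n), 4 < S.card → coef F S = 0) :
    8 * ∑ i : Fin n, coef F {i}
      = 6 * (F (fun _ => false) - F (fun _ => true))
        - ∑ i : Fin n, (F (fun _ => false) - F (Function.update (fun _ => false) i true))
        - ∑ i : Fin n, (F (Function.update (fun _ => true) i false) - F (fun _ => true)) := by
  have hq := quartic_identity (biasPoly F) (biasPoly_natDegree_le hdeg)
  have h0 := biasPoly_derivative_eval_zero F
  have h1 : (biasPoly F).eval 1 = F (fun _ => false) := by
    rw [biasPoly_eval, ← Ebias_eq_bcoef_empty, Ebias_one]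
  have h2 : (biasPoly F).eval (-1) = F (fun _ => true) := by
    rw [biasPoly_eval, ← Ebias_eq_bcoef_empty, Ebias_neg_one]
  have h3 : (biasPoly F).derivative.eval 1
      = ∑ i : Fin n, (F (fun _ => false) - F (Function.update (fun _ => false) i true)) / 2 := by
    rw [biasPoly_derivative_eval]
    apply Finset.sum_congr rfl
    intro i _
    rw [← Ebias_dcube, Ebias_one, dcube]
    have hu : Function.update (fun _ : Fin n => false) i false = fun _ => false := by
      funext j
      by_cases hj : j = i
      · subst hj
        simp
      · simp [Function.update_of_ne hj]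
    rw [hu]
  have h4 : (biasPoly F).derivative.eval (-1)
      = ∑ i : Fin n, (F (Function.update (fun _ => true) i false) - F (fun _ => true)) / 2 := by
    rw [biasPoly_derivative_eval]
    apply Finset.sum_congr rfl
    intro i _
    rw [← Ebias_dcube, Ebias_neg_one, dcube]
    have hu : Function.update (fun _ : Fin n => true) i true = fun _ => true := by
      funext j
      by_cases hj : j = i
      · subst hj
        simp
      · simp [Function.update_of_ne hj]
    rw [hu]
  rw [h0, h1, h2, h3, h4, ← Finset.sum_div, ← Finset.sum_div] at hq
  linarith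

end Vale.Agent.H39
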