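import Vale.Agent.H39.D4.Defs

/-!
TASK D4-LAYERINT (done; statement as in the stub; helper lemmas in this file, names starting
`lin_`).

For a sign-valued `G` every layer sum is an integer of absolute value at most `C(m, k)`.

Sketch.  The number of points of weight `k` is `C(m, k)`: the map
`x ↦ Finset.univ.filter (fun i => x i = true)` is a bijection from the cube onto
`Finset (Fin m)` (inverse `U ↦ fun i => decide (i ∈ U)`), it carries `{x | hw x = k}` onto
`Finset.powersetCard k Finset.univ` (`Finset.card_powersetCard`, `Finset.card_univ`,
`Fintype.card_fin`); e.g. `Finset.card_bij` or `Finset.card_nbij'`.  Then take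
`z = ∑ x, if hw x = k then (if G x = 1 then 1 else -1) else 0` (classical decidability), show
`layer G k = z` by `push_cast` and `hG`, and `|z| ≤ ∑ x, if hw x = k then 1 else 0
= card (filter) = C(m, k)` (`Finset.abs_sum_le_sum_abs`, `Finset.sum_boole`).
-/

namespace Vale.Agent.H39

/-- The number of points of Hamming weight `k` in the `m`-cube. -/
theorem lin_card (m k : ℕ) :
    (Finset.univ.filter (fun x : Fin m → Bool => hw x = k)).card = m.choose k := by
  have h := Finset.card_powersetCard k (Finset.univ : Finset (Fin m))
  rw [Finset.card_univ, Fintype.card_fin] at h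
  rw [← h]
  apply Finset.card_bij (fun x _ => Finset.univ.filter (fun i => x i = true))
  · intro x hx
    rw [Finset.mem_powersetCard]
    exact ⟨Finset.subset_univ _, (Finset.mem_filter.mp hx).2⟩
  · intro x _ y _ hxy
    funext i
    have h1 : i ∈ Finset.univ.filter (fun i => x i = true) ↔
        i ∈ Finset.univ.filter (fun i => y i = true) := by rw [hxy]
    simp only [Finset.mem_filter, Finset.mem_univ, true_and] at h1
    cases hx : x i <;> cases hy : y i <;> simp_all
  · intro U hU
    refine ⟨fun i => decide (i ∈ U), ?_, ?_⟩
    · rw [Finset.mem_filter]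
      refine ⟨Finset.mem_univ _, ?_⟩
      unfold hw
      have h1 : Finset.univ.filter (fun i => decide (i ∈ U) = true) = U := by
        ext i
        simp
      rw [h1]
      exact (Finset.mem_powersetCard.mp hU).2
    · ext i
      simp

theorem layer_int {m : ℕ} (G : (Fin m → Bool) → ℝ) (hG : ∀ x, G x = 1 ∨ G x = -1) (k : ℕ) :
    ∃ z : ℤ, layer G k = (z : ℝ) ∧ |z| ≤ ((m.choose k : ℕ) : ℤ) := by
  classical
  refine ⟨∑ x : Fin m → Bool, if hw x = k then (if G x = 1 then (1 : ℤ) else -1) else 0,
    ?_, ?_⟩
  · unfold layer
    push_cast
    apply Finset.sum_congr rfl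
    intro x _
    by_cases hk : hw x = k
    · rw [if_pos hk, if_pos hk]
      rcases hG x with h | h
      · rw [if_pos h, h]
      · have hne : G x ≠ 1 := by
          rw [h]
          norm_num
        rw [if_neg hne, h]
    · rw [if_neg hk, if_neg hk]
  · calc |∑ x : Fin m → Bool, if hw x = k then (if G x = 1 then (1 : ℤ) else -1) else 0|
        ≤ ∑ x : Fin m → Bool, |if hw x = k then (if G x = 1 then (1 : ℤ) else -1) else 0| :=
          Finset.abs_sum_le_sum_abs _ _
      _ ≤ ∑ x : Fin m → Bool, if hw x = k then (1 : ℤ) else 0 := by
          apply Finset.sum_le_sum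
          intro x _
          by_cases hk : hw x = k
          · rw [if_pos hk, if_pos hk]
            by_cases h : G x = 1
            · rw [if_pos h]
              norm_num
            · rw [if_neg h]
              norm_num
          · rw [if_neg hk, if_neg hk]
            norm_num
      _ = ((m.choose k : ℕ) : ℤ) := by
          rw [Finset.sum_boole, lin_card]

end Vale.Agent.H39
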