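import Vale.Agent.H39.D4.Defs

/-!
TASK D4-LAYERPTS (replace the four `sorry`, keep the statements exactly; helper lemmas in this
file, names starting `lpt_`).

The layers `0`, `1`, `m-1`, `m` of the cube: the point of weight `0` is `fun _ => false`, the
points of weight `1` are `Function.update (fun _ => false) j true`, the points of weight `m-1` are
`Function.update (fun _ => true) j false`, the point of weight `m` is `fun _ => true`.

Sketch.  `hw x = 0 ↔ x = fun _ => false`, `hw x = m ↔ x = fun _ => true`
(`Finset.card_eq_zero`, `Finset.filter_eq_empty_iff`; `Finset.card_filter_eq_iff` /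
`Finset.filter_true_of_mem`, `Finset.card_univ`, `Fintype.card_fin`); then
`Finset.sum_ite_eq`-style collapse.  For weight `1`: `hw x = 1 ↔ ∃ j, x = update (fun _ => false)
j true` (`Finset.card_eq_one`), and `j ↦ update (fun _ => false) j true` is injective; use
`Finset.sum_filter` and `Finset.sum_bij` / `Finset.sum_image`.  For weight `m - 1` apply the
weight-one statement to `fun x => G (fun i => !x i)` (the complement map is an involution of the
cube with `hw (fun i => !x i) = m - hw x`), or repeat the argument.
-/

namespace Vale.Agent.H39

theorem lpt_hw_eq_zero {m : ℕ} (x : Fin m → Bool) : hw x = 0 ↔ x = fun _ => false := by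
  unfold hw
  rw [Finset.card_eq_zero, Finset.filter_eq_empty_iff]
  constructor
  · intro h
    funext i
    have := h (Finset.mem_univ i)
    simpa using this
  · intro h i _
    rw [h]
    simp

theorem lpt_hw_le {m : ℕ} (x : Fin m → Bool) : hw x ≤ m := by
  unfold hw
  calc (Finset.univ.filter (fun i => x i = true)).card ≤ (Finset.univ : Finset (Fin m)).card :=
        Finset.card_le_card (Finset.filter_subset _ _)
    _ = m := by rw [Finset.card_univ, Fintype.card_fin]

theorem lpt_hw_eq_top {m : ℕ} (x : Fin m → Bool) : hw x = m ↔ x = fun _ => true := by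
  unfold hw
  constructor
  · intro h
    have h1 : Finset.univ.filter (fun i => x i = true) = Finset.univ := by
      apply Finset.eq_univ_of_card
      rw [h, Fintype.card_fin]
    funext i
    have : i ∈ Finset.univ.filter (fun i => x i = true) := by rw [h1]; exact Finset.mem_univ i
    exact (Finset.mem_filter.mp this).2
  · intro h
    rw [h]
    simp

theorem layer_zero {m : ℕ} (G : (Fin m → Bool) → ℝ) : layer G 0 = G (fun _ => false) := by
  classical
  unfold layer
  simp only [lpt_hw_eq_zero]
  rw [Finset.sum_ite_eq']
  simp

theorem layer_top {m : ℕ} (G : (Fin m → Bool) → ℝ) : layer G m = G (fun _ => true) := by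
  classical
  unfold layer
  simp only [lpt_hw_eq_top]
  rw [Finset.sum_ite_eq']
  simp

theorem lpt_hw_update {m : ℕ} (j : Fin m) :
    hw (Function.update (fun _ : Fin m => false) j true) = 1 := by
  classical
  unfold hw
  rw [Finset.card_eq_one]
  refine ⟨j, ?_⟩
  ext i
  simp only [Finset.mem_filter, Finset.mem_univ, true_and, Finset.mem_singleton]
  by_cases h : i = j
  · subst h
    simp
  · simp [h]

theorem lpt_hw_eq_one {m : ℕ} (x : Fin m → Bool) :
    hw x = 1 ↔ ∃ j, Function.update (fun _ : Fin m => false) j true = x := by
  classical
  constructor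
  · intro h
    unfold hw at h
    obtain ⟨j, hj⟩ := Finset.card_eq_one.mp h
    refine ⟨j, ?_⟩
    funext i
    have hi : x i = true ↔ i = j := by
      have := Finset.ext_iff.mp hj i
      simpa using this
    by_cases hij : i = j
    · subst hij
      simp [hi.mpr rfl]
    · rw [Function.update_of_ne hij]
      have : ¬ x i = true := fun hx => hij (hi.mp hx)
      simpa using this
  · rintro ⟨j, rfl⟩
    exact lpt_hw_update j

theorem lpt_update_inj {m : ℕ} :
    Function.Injective (fun j : Fin m => Function.update (fun _ : Fin m => false) j true) := by
  classical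
  intro j j' h
  have h1 := congrFun h j
  simp only [Function.update_self] at h1
  by_contra hne
  rw [Function.update_of_ne hne] at h1
  exact Bool.noConfusion h1

theorem layer_one {m : ℕ} (G : (Fin m → Bool) → ℝ) :
    layer G 1 = ∑ j : Fin m, G (Function.update (fun _ => false) j true) := by
  classical
  unfold layer
  rw [← Finset.sum_filter]
  have himg : Finset.univ.filter (fun x : Fin m → Bool => hw x = 1) =
      Finset.univ.image (fun j : Fin m => Function.update (fun _ : Fin m => false) j true) := by
    ext x
    simp only [Finset.mem_filter, Finset.mem_univ, true_and, Finset.mem_image]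
    exact lpt_hw_eq_one x
  rw [himg, Finset.sum_image (fun a _ b _ h => lpt_update_inj h)]

theorem lpt_hw_compl {m : ℕ} (x : Fin m → Bool) : hw (fun i => !x i) + hw x = m := by
  classical
  unfold hw
  have h1 : Finset.univ.filter (fun i => (!x i) = true) =
      Finset.univ.filter (fun i => ¬ x i = true) := by
    ext i
    simp
  rw [h1, add_comm, Finset.card_filter_add_card_filter_not, Finset.card_univ, Fintype.card_fin]

theorem layer_pred {m : ℕ} (hm : 2 ≤ m) (G : (Fin m → Bool) → ℝ) :
    layer G (m - 1) = ∑ j : Fin m, G (Function.update (fun _ => true) j false) := by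
  classical
  have hinv : Function.Involutive (fun (x : Fin m → Bool) (i : Fin m) => !x i) := by
    intro x
    funext i
    simp
  have h1 : layer G (m - 1) = layer (fun x => G (fun i => !x i)) 1 := by
    unfold layer
    rw [← Equiv.sum_comp (Function.Involutive.toPerm _ hinv)]
    refine Finset.sum_congr rfl (fun x _ => ?_)
    have hc := lpt_hw_compl x
    have hle := lpt_hw_le x
    have hiff : hw ((Function.Involutive.toPerm _ hinv) x) = m - 1 ↔ hw x = 1 := by
      show hw (fun i => !x i) = m - 1 ↔ hw x = 1
      omega
    by_cases hx : hw x = 1
    · rw [if_pos hx, if_pos (hiff.mpr hx)]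
      rfl
    · rw [if_neg hx, if_neg (fun h => hx (hiff.mp h))]
  rw [h1, layer_one]
  refine Finset.sum_congr rfl (fun j _ => ?_)
  congr 1
  funext i
  by_cases hij : i = j
  · subst hij
    simp
  · simp [Function.update_of_ne hij]

end Vale.Agent.H39
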