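import Mathlib

/-!
TASK D4-MERGEFN (proved, statement kept exactly; helper lemma `mfn_iff` in this file).
Mathlib only.

Merging all coordinates outside a set `K ⊆ Fin n` into one new coordinate.  There is a map
`φ : Fin n → Fin (K.card + 1)` (injective on `K` with values in the first `K.card` indices, and
constant `= Fin.last K.card` outside `K`) such that for every `H` on the `n`-cube and every bit
`b`, with `pt j = Function.update (fun _ => b) j (!b)` (the point of the `(K.card+1)`-cube that
differs from the constant point `b` exactly at `j`):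
`∑ j, H (fun i => pt j (φ i)) = ∑ i ∈ K, H (Function.update (fun _ => b) i (!b))
    + H (fun i => pt (Fin.last K.card) (φ i))`.

Sketch.  Let `e : K ≃ Fin K.card := K.equivFin` and
`φ i = if h : i ∈ K then Fin.castSucc (e ⟨i, h⟩) else Fin.last K.card`.
`Fin.sum_univ_castSucc` splits off the last index.  For `j : Fin K.card` and `i0 = (e.symm j : Fin n)`:
`(fun i => Function.update (fun _ => b) (Fin.castSucc j) (!b) (φ i))
   = Function.update (fun _ => b) i0 (!b)` (funext; `φ i = castSucc j ↔ i = i0`, using
`Fin.castSucc_inj`, `Fin.castSucc_lt_last`/`Fin.castSucc_ne_last`, `Equiv.apply_symm_apply`,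
`Equiv.symm_apply_apply`).  Finally `∑ j : Fin K.card, g (e.symm j) = ∑ i : K, g i
= ∑ i ∈ K, g i` (`Equiv.sum_comp`, `Finset.sum_coe_sort`).
-/

namespace Vale.Agent.H39

theorem mfn_iff {n : ℕ} (K : Finset (Fin n)) (j : Fin K.card) (i : Fin n) :
    (if h : i ∈ K then Fin.castSucc (K.equivFin ⟨i, h⟩) else Fin.last K.card) = Fin.castSucc j ↔
      i = ((K.equivFin.symm j : K) : Fin n) := by
  by_cases h : i ∈ K
  · rw [dif_pos h, Fin.castSucc_inj]
    constructor
    · intro hj
      rw [← hj, Equiv.symm_apply_apply]
    · intro hi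
      have : (⟨i, h⟩ : K) = K.equivFin.symm j := Subtype.ext hi
      rw [this, Equiv.apply_symm_apply]
  · rw [dif_neg h]
    constructor
    · intro hj
      exact absurd hj.symm (Fin.castSucc_ne_last j)
    · intro hi
      exact absurd (hi ▸ (K.equivFin.symm j).2) h

theorem exists_merge {n : ℕ} (K : Finset (Fin n)) :
    ∃ φ : Fin n → Fin (K.card + 1), ∀ (H : (Fin n → Bool) → ℝ) (b : Bool),
      ∑ j : Fin (K.card + 1), H (fun i => Function.update (fun _ => b) j (!b) (φ i))
        = ∑ i ∈ K, H (Function.update (fun _ => b) i (!b))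
          + H (fun i => Function.update (fun _ => b) (Fin.last K.card) (!b) (φ i)) := by
  classical
  refine ⟨fun i => if h : i ∈ K then Fin.castSucc (K.equivFin ⟨i, h⟩) else Fin.last K.card, ?_⟩
  intro H b
  rw [Fin.sum_univ_castSucc]
  congr 1
  have key : ∀ j : Fin K.card,
      (fun i : Fin n => Function.update (fun _ : Fin (K.card + 1) => b) (Fin.castSucc j) (!b)
        (if h : i ∈ K then Fin.castSucc (K.equivFin ⟨i, h⟩) else Fin.last K.card))
      = Function.update (fun _ : Fin n => b) ((K.equivFin.symm j : K) : Fin n) (!b) := by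
    intro j
    funext i
    rw [Function.update_apply, Function.update_apply]
    by_cases hi : i = ((K.equivFin.symm j : K) : Fin n)
    · rw [if_pos ((mfn_iff K j i).mpr hi), if_pos hi]
    · rw [if_neg (fun h => hi ((mfn_iff K j i).mp h)), if_neg hi]
  simp only [key]
  rw [Equiv.sum_comp K.equivFin.symm
    (fun k : K => H (Function.update (fun _ : Fin n => b) (k : Fin n) (!b)))]
  exact Finset.sum_coe_sort K (fun i => H (Function.update (fun _ : Fin n => b) i (!b)))

end Vale.Agent.H39
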