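import Vale.Agent.H39.D4.Param
import Vale.Agent.H39.D4.LayerInt

/-!
TASK D4-PARAMZ (DONE by helper62: proved, statement kept exactly; helper lemmas in this file,
names starting `prz_`).  Black boxes: `layer_param` (Param.lean), `layer_int` (LayerInt.lean).

For a sign-valued `G` of degree at most `4` on `m ≥ 8` variables the parameters are integers:
there is `z : Fin 5 → ℤ` with `layer G k = lay m z k` for every `k`
(`lay m z k = ∑ i : Fin 5, z i * shc (m - 4) k i`, `shc N k i = if i ≤ k then C(N, k - i) else 0`,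
Defs.lean).

Sketch.  Take `e` from `layer_param` and integers `L0 L1 L2 Lp Lm` with
`layer G 0 = L0`, `layer G 1 = L1`, `layer G 2 = L2`, `layer G (m-1) = Lp`, `layer G m = Lm`
(`layer_int`).  Evaluate the formula of `layer_param` (`Fin.sum_univ_five`) at
* `k = 0`: `layer G 0 = e 0`;
* `k = 1`: `layer G 1 = e 0 * (m-4) + e 1`  (`Nat.choose_one_right`, `Nat.choose_zero_right`);
* `k = 2`: `layer G 2 = e 0 * C(m-4, 2) + e 1 * (m-4) + e 2`;
* `k = m`: `layer G m = e 4`  (`C(m-4, m-i) = 0` for `i ≤ 3`: `Nat.choose_eq_zero_of_lt`;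
  `C(m-4, m-4) = 1`);
* `k = m-1`: `layer G (m-1) = e 3 + e 4 * (m-4)`  (`C(m-4, m-1-3) = 1`,
  `C(m-4, m-1-4) = C(m-4, m-5) = m-4` by `Nat.choose_symm_diff`/`Nat.choose_succ_self_right`
  after writing `m = N + 5`, and `C(m-4, m-1-i) = 0` for `i ≤ 2`).
  (It may be easiest to write `m = N + 8` first: `obtain ⟨N, rfl⟩ := Nat.exists_eq_add_of_le hm`.)
So `e 0 = L0`, `e 1 = L1 - (m-4) L0`, `e 2 = L2 - (m-4) e 1 - C(m-4,2) L0`, `e 4 = Lm`,
`e 3 = Lp - (m-4) Lm` are (casts of) integers `z i`; then `layer G k = ∑ i, e i * ... ` turns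
into `((lay m z k : ℤ) : ℝ)` by `simp only [lay, shc]`, `push_cast`, `Fin.sum_univ_five` and
`split_ifs`/`congr`.
-/

namespace Vale.Agent.H39

theorem prz_shc_cast (N k i : ℕ) :
    ((shc N k i : ℤ) : ℝ) = if i ≤ k then ((N.choose (k - i) : ℕ) : ℝ) else 0 := by
  unfold shc
  split_ifs <;> simp

theorem layer_param_int {m : ℕ} (hm : 8 ≤ m) (G : (Fin m → Bool) → ℝ)
    (hG : ∀ x, G x = 1 ∨ G x = -1)
    (hdeg : ∀ S : Finset (Fin m), 4 < S.card → coef G S = 0) :
    ∃ z : Fin 5 → ℤ, ∀ k : ℕ, layer G k = ((lay m z k : ℤ) : ℝ) := by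
  obtain ⟨e, he⟩ := layer_param (by omega) G hdeg
  obtain ⟨L0, hL0, -⟩ := layer_int G hG 0
  obtain ⟨L1, hL1, -⟩ := layer_int G hG 1
  obtain ⟨L2, hL2, -⟩ := layer_int G hG 2
  obtain ⟨Lp, hLp, -⟩ := layer_int G hG (m - 1)
  obtain ⟨Lm, hLm, -⟩ := layer_int G hG m
  obtain ⟨M, hM⟩ : ∃ M : ℕ, m - 4 = M := ⟨_, rfl⟩
  have hM4 : 4 ≤ M := by omega
  have hmM : m = M + 4 := by omega
  have hm1 : m - 1 = M + 3 := by omega
  rw [hM] at he
  have key : ∀ k : ℕ, layer G k =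
      e 0 * (if 0 ≤ k then ((M.choose (k - 0) : ℕ) : ℝ) else 0) +
      e 1 * (if 1 ≤ k then ((M.choose (k - 1) : ℕ) : ℝ) else 0) +
      e 2 * (if 2 ≤ k then ((M.choose (k - 2) : ℕ) : ℝ) else 0) +
      e 3 * (if 3 ≤ k then ((M.choose (k - 3) : ℕ) : ℝ) else 0) +
      e 4 * (if 4 ≤ k then ((M.choose (k - 4) : ℕ) : ℝ) else 0) := by
    intro k
    rw [he k, Fin.sum_univ_five]
    rfl
  have e0 : e 0 = (L0 : ℝ) := by
    have h := key 0
    simp at h
    rw [← h, hL0]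
  have e1 : e 1 = (L1 : ℝ) - (M : ℝ) * (L0 : ℝ) := by
    have h := key 1
    simp at h
    rw [hL1, e0] at h
    linarith
  have e2 : e 2 = (L2 : ℝ) - (M : ℝ) * ((L1 : ℝ) - (M : ℝ) * (L0 : ℝ)) -
      ((M.choose 2 : ℕ) : ℝ) * (L0 : ℝ) := by
    have h := key 2
    simp at h
    rw [hL2, e0, e1] at h
    linarith
  have e4 : e 4 = (Lm : ℝ) := by
    have h := key (M + 4)
    have c0 : M.choose (M + 4) = 0 := Nat.choose_eq_zero_of_lt (by omega)
    have c1 : M.choose (M + 4 - 1) = 0 := Nat.choose_eq_zero_of_lt (by omega)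
    have c2 : M.choose (M + 4 - 2) = 0 := Nat.choose_eq_zero_of_lt (by omega)
    have c3 : M.choose (M + 4 - 3) = 0 := Nat.choose_eq_zero_of_lt (by omega)
    have c4 : M.choose (M + 4 - 4) = 1 := by
      rw [Nat.add_sub_cancel]
      exact Nat.choose_self M
    simp only [Nat.sub_zero, c0, c1, c2, c3, c4] at h
    simp at h
    rw [← hmM, hLm] at h
    exact h.symm
  have e3 : e 3 = (Lp : ℝ) - (M : ℝ) * (Lm : ℝ) := by
    have h := key (M + 3)
    have c0 : M.choose (M + 3) = 0 := Nat.choose_eq_zero_of_lt (by omega)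
    have c1 : M.choose (M + 3 - 1) = 0 := Nat.choose_eq_zero_of_lt (by omega)
    have c2 : M.choose (M + 3 - 2) = 0 := Nat.choose_eq_zero_of_lt (by omega)
    have c3 : M.choose (M + 3 - 3) = 1 := by
      rw [Nat.add_sub_cancel]
      exact Nat.choose_self M
    have c4 : M.choose (M + 3 - 4) = M := by
      obtain ⟨K, rfl⟩ : ∃ K, M = K + 1 := ⟨M - 1, by omega⟩
      have : K + 1 + 3 - 4 = K := by omega
      rw [this]
      exact Nat.choose_succ_self_right K
    simp only [Nat.sub_zero, c0, c1, c2, c3, c4] at h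
    simp at h
    rw [← hm1, hLp, e4] at h
    rw [if_pos (by omega)] at h
    linarith
  refine ⟨![L0, L1 - (M : ℤ) * L0, L2 - (M : ℤ) * (L1 - (M : ℤ) * L0) - ((M.choose 2 : ℕ) : ℤ) * L0,
    Lp - (M : ℤ) * Lm, Lm], ?_⟩
  intro k
  rw [key k]
  unfold lay
  rw [hM, Fin.sum_univ_five]
  push_cast
  rw [prz_shc_cast, prz_shc_cast, prz_shc_cast, prz_shc_cast, prz_shc_cast, e0, e1, e2, e3, e4]
  simp

end Vale.Agent.H39
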