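import Mathlib

/-!
D4-SELECT.  Pure finite combinatorics, Mathlib only.

* `select_b`: weights `w i ∈ {0, 1, 2}` with total at least `15`: some set `K` of at least `8` and
  at most `15` indices carries weight at least `15`.
  Proof: `K' = univ.filter (fun i => 1 ≤ w i)` carries the whole weight.  If `K'.card ≤ 15` take
  `K = K'`; otherwise take `K ⊆ K'` with `K.card = 15`, whose weight is at least `15` since every
  element has weight at least `1`.  In both cases `15 ≤ ∑ i ∈ K, w i ≤ 2 * K.card` gives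
  `8 ≤ K.card`.
* `select_cd`: if `16 < ∑ i, c i`, every `c i ≤ 2`, and `c i ≤ 0` unless `P i`, then at least `9`
  indices satisfy `P`; take `9` of them.
-/

namespace Vale.Agent.H39

theorem sel_card_ge {n : ℕ} (w : Fin n → ℕ) (hw : ∀ i, w i ≤ 2) (K : Finset (Fin n))
    (h : 15 ≤ ∑ i ∈ K, w i) : 8 ≤ K.card := by
  have h1 : ∑ i ∈ K, w i ≤ K.card • 2 := Finset.sum_le_card_nsmul K w 2 (fun i _ => hw i)
  rw [smul_eq_mul] at h1
  omega

theorem select_b {n : ℕ} (w : Fin n → ℕ) (hw : ∀ i, w i ≤ 2) (h : 15 ≤ ∑ i, w i) :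
    ∃ K : Finset (Fin n), 8 ≤ K.card ∧ K.card ≤ 15 ∧ 15 ≤ ∑ i ∈ K, w i := by
  classical
  have hsum : ∑ i ∈ Finset.univ.filter (fun i => 1 ≤ w i), w i = ∑ i, w i := by
    rw [Finset.sum_filter]
    refine Finset.sum_congr rfl fun i _ => ?_
    split_ifs with h1
    · rfl
    · omega
  by_cases hcard : (Finset.univ.filter (fun i => 1 ≤ w i)).card ≤ 15
  · refine ⟨Finset.univ.filter (fun i => 1 ≤ w i), ?_, hcard, ?_⟩
    · exact sel_card_ge w hw _ (by rw [hsum]; exact h)
    · rw [hsum]; exact h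
  · have h15 : 15 ≤ (Finset.univ.filter (fun i => 1 ≤ w i)).card := by omega
    obtain ⟨K, hK, hKc⟩ := Finset.exists_subset_card_eq h15
    have hKw : 15 ≤ ∑ i ∈ K, w i := by
      have h1 : K.card • 1 ≤ ∑ i ∈ K, w i := by
        apply Finset.card_nsmul_le_sum
        intro i hi
        exact (Finset.mem_filter.mp (hK hi)).2
      rw [smul_eq_mul, hKc] at h1
      omega
    exact ⟨K, sel_card_ge w hw K hKw, by omega, hKw⟩

theorem select_cd {n : ℕ} (c : Fin n → ℝ) (P : Fin n → Prop) (hc : ∀ i, c i ≤ 2)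
    (hP : ∀ i, ¬ P i → c i ≤ 0) (h : 16 < ∑ i, c i) :
    ∃ K : Finset (Fin n), K.card = 9 ∧ ∀ i ∈ K, P i := by
  classical
  have hle : ∑ i, c i ≤ ∑ i, (if P i then (2 : ℝ) else 0) := by
    apply Finset.sum_le_sum
    intro i _
    split_ifs with h1
    · exact hc i
    · exact hP i h1
  have hsum : ∑ i : Fin n, (if P i then (2 : ℝ) else 0)
      = 2 * ((Finset.univ.filter (fun i => P i)).card : ℝ) := by
    rw [← Finset.sum_filter, Finset.sum_const, nsmul_eq_mul]
    ring
  have hcard : (8 : ℝ) < ((Finset.univ.filter (fun i => P i)).card : ℝ) := by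
    rw [hsum] at hle
    linarith
  have h9 : 9 ≤ (Finset.univ.filter (fun i => P i)).card := by
    have h8 : 8 < (Finset.univ.filter (fun i => P i)).card := by exact_mod_cast hcard
    omega
  obtain ⟨K, hK, hKc⟩ := Finset.exists_subset_card_eq h9
  exact ⟨K, hKc, fun i hi => (Finset.mem_filter.mp (hK hi)).2⟩

end Vale.Agent.H39
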