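import Vale.Agent.H39.D4.Identity
import Vale.Agent.H39.D4.ParamZ
import Vale.Agent.H39.D4.LayerPts
import Vale.Agent.H39.D4.Merge
import Vale.Agent.H39.D4.Finite
import Vale.Agent.H39.D4.Select
import Vale.Agent.H39.D4.MergeFn

/-!
# The Gopalan-Servedio inequality in degree four (seat H39)

Every Boolean function of degree at most `4` has level-one sum at most `2 = √4`.

Proof.  By `levelOne_identity`, `8 W = (6 - n) (F(+) - F(-)) + ∑_i (p_i - q_i)` with `p_i`, `q_i`
the values at the neighbours of the two constant points.  If `W > 2`, a set `K` of at most `15`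
coordinates already carries the excess (`select_b`, `select_cd`).  Merging all other coordinates
into one new variable (`exists_merge`, `coef_comp_eq_zero`) gives a Boolean function of degree at
most `4` on `K.card + 1 ≤ 16` variables with the same excess; its layer sums are the coefficients
of `(1 + t)^(m-4) (z₀ + ... + z₄ t⁴)` with integers `z_i` (`layer_param_int`) and are bounded by
binomial coefficients (`layer_int`), which is impossible (`fin_b`, `fin_cd`).
-/

namespace Vale.Agent.H39

open Finset

/-- The integer profile of the function obtained by merging all coordinates outside `K`. -/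
theorem d4_profile {n : ℕ} {F : (Fin n → Bool) → ℝ} (hF : ∀ x, F x = 1 ∨ F x = -1)
    (hdeg : ∀ S : Finset (Fin n), 4 < S.card → coef F S = 0) (K : Finset (Fin n))
    (hK : 7 ≤ K.card) (vp vm : ℤ) (hvp : F (fun _ => false) = (vp : ℝ))
    (hvm : F (fun _ => true) = (vm : ℝ)) :
    ∃ (z : Fin 5 → ℤ) (a b : ℤ),
      (∀ k, |lay (K.card + 1) z k| ≤ (((K.card + 1).choose k : ℕ) : ℤ)) ∧
      lay (K.card + 1) z 0 = vp ∧ lay (K.card + 1) z (K.card + 1) = vm ∧
      lay (K.card + 1) z 1 = 2 * a - ((K.card + 1 : ℕ) : ℤ) ∧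
      lay (K.card + 1) z (K.card + 1 - 1) = ((K.card + 1 : ℕ) : ℤ) - 2 * b ∧
      ∑ i ∈ K, (F (Function.update (fun _ => false) i true)
          - F (Function.update (fun _ => true) i false)) - 2
        ≤ 2 * ((a : ℝ) + (b : ℝ)) - 2 * ((K.card : ℝ) + 1) := by
  classical
  obtain ⟨φ, hφ⟩ := exists_merge K
  set G : (Fin (K.card + 1) → Bool) → ℝ := fun y => F (fun i => y (φ i)) with hGdef
  have hG : ∀ y, G y = 1 ∨ G y = -1 := fun y => hF _
  have hGdeg : ∀ T : Finset (Fin (K.card + 1)), 4 < T.card → coef G T = 0 :=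
    coef_comp_eq_zero φ F 4 hdeg
  obtain ⟨z, hz⟩ := layer_param_int (by omega : 8 ≤ K.card + 1) G hG hGdeg
  have hbd : ∀ k, |lay (K.card + 1) z k| ≤ (((K.card + 1).choose k : ℕ) : ℤ) := by
    intro k
    obtain ⟨z', hz', hb⟩ := layer_int G hG k
    have h1 : ((lay (K.card + 1) z k : ℤ) : ℝ) = (z' : ℝ) := by rw [← hz k, hz']
    have h2 : lay (K.card + 1) z k = z' := by exact_mod_cast h1
    rw [h2]
    exact hb
  have hf := hφ F false
  have ht := hφ F true
  simp only [Bool.not_false, Bool.not_true] at hf ht
  set a : ℤ := ∑ j : Fin (K.card + 1),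
    if G (Function.update (fun _ => false) j true) = 1 then 1 else 0 with ha
  set b : ℤ := ∑ j : Fin (K.card + 1),
    if G (Function.update (fun _ => true) j false) = -1 then 1 else 0 with hb
  have hcard : ((K.card : ℝ) + 1) = ∑ _j : Fin (K.card + 1), (1 : ℝ) := by simp
  have hL1 : layer G 1 = 2 * (a : ℝ) - ((K.card : ℝ) + 1) := by
    rw [layer_one, ha]
    push_cast
    rw [Finset.mul_sum, hcard, ← Finset.sum_sub_distrib]
    apply Finset.sum_congr rfl
    intro j _
    rcases hG (Function.update (fun _ => false) j true) with h | h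
    · rw [h]
      norm_num
    · rw [h]
      norm_num
  have hLp : layer G (K.card + 1 - 1) = ((K.card : ℝ) + 1) - 2 * (b : ℝ) := by
    rw [layer_pred (by omega), hb]
    push_cast
    rw [Finset.mul_sum, hcard, ← Finset.sum_sub_distrib]
    apply Finset.sum_congr rfl
    intro j _
    rcases hG (Function.update (fun _ => true) j false) with h | h
    · rw [h]
      norm_num
    · rw [h]
      norm_num
  refine ⟨z, a, b, hbd, ?_, ?_, ?_, ?_, ?_⟩
  · have h := hz 0
    rw [layer_zero] at h
    have hG0 : G (fun _ => false) = F (fun _ => false) := rfl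
    rw [hG0, hvp] at h
    exact_mod_cast h.symm
  · have h := hz (K.card + 1)
    rw [layer_top] at h
    have hG1 : G (fun _ => true) = F (fun _ => true) := rfl
    rw [hG1, hvm] at h
    exact_mod_cast h.symm
  · have h := hz 1
    rw [hL1] at h
    have h' : ((lay (K.card + 1) z 1 : ℤ) : ℝ) = ((2 * a - ((K.card + 1 : ℕ) : ℤ) : ℤ) : ℝ) := by
      rw [← h]
      push_cast
      ring
    exact_mod_cast h'
  · have h := hz (K.card + 1 - 1)
    rw [hLp] at h
    have h' : ((lay (K.card + 1) z (K.card + 1 - 1) : ℤ) : ℝ)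
        = ((((K.card + 1 : ℕ) : ℤ) - 2 * b : ℤ) : ℝ) := by
      rw [← h]
      push_cast
      ring
    exact_mod_cast h'
  · have e1 : layer G 1 = ∑ i ∈ K, F (Function.update (fun _ => false) i true)
        + F (fun i => Function.update (fun _ => false) (Fin.last K.card) true (φ i)) := by
      rw [layer_one]
      exact hf
    have e2 : layer G (K.card + 1 - 1) = ∑ i ∈ K, F (Function.update (fun _ => true) i false)
        + F (fun i => Function.update (fun _ => true) (Fin.last K.card) false (φ i)) := by
      rw [layer_pred (by omega)]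
      exact ht
    have b1 : -1 ≤ F (fun i => Function.update (fun _ => false) (Fin.last K.card) true (φ i)) := by
      rcases hF (fun i => Function.update (fun _ => false) (Fin.last K.card) true (φ i)) with h | h
      · rw [h]
        norm_num
      · rw [h]
    have b2 : F (fun i => Function.update (fun _ => true) (Fin.last K.card) false (φ i)) ≤ 1 := by
      rcases hF (fun i => Function.update (fun _ => true) (Fin.last K.card) false (φ i)) with h | h
      · rw [h]
      · rw [h]
        norm_num
    rw [Finset.sum_sub_distrib]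
    rw [hL1] at e1
    rw [hLp] at e2
    linarith

/-- **Degree four**: a sign-valued function on the cube whose Fourier coefficients vanish above
level `4` has level-one sum at most `2`. -/
theorem deg4_core {n : ℕ} {F : (Fin n → Bool) → ℝ} (hF : ∀ x, F x = 1 ∨ F x = -1)
    (hdeg : ∀ S : Finset (Fin n), 4 < S.card → coef F S = 0) :
    ∑ i : Fin n, coef F {i} ≤ 2 := by
  classical
  by_contra hcon
  push Not at hcon
  have hid := levelOne_identity F hdeg
  set p : Fin n → ℝ := fun i => F (Function.update (fun _ => false) i true) with hp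
  set q : Fin n → ℝ := fun i => F (Function.update (fun _ => true) i false) with hq
  have hpv : ∀ i, p i = 1 ∨ p i = -1 := fun i => hF _
  have hqv : ∀ i, q i = 1 ∨ q i = -1 := fun i => hF _
  have hid2 : 8 * ∑ i : Fin n, coef F {i}
      = (6 - (n : ℝ)) * (F (fun _ => false) - F (fun _ => true)) + ∑ i, (p i - q i) := by
    rw [hid]
    simp only [Finset.sum_sub_distrib, Finset.sum_const, Finset.card_univ, Fintype.card_fin,
      nsmul_eq_mul]
    ring
  have hc2 : ∀ i, p i - q i ≤ 2 := by
    intro i
    rcases hpv i with h1 | h1 <;> rcases hqv i with h2 | h2 <;> rw [h1, h2] <;> norm_num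
  -- the two cases with equal values at the constant points
  have hcd : ∀ v : ℤ, (v = 1 ∨ v = -1) → F (fun _ => false) = (v : ℝ) →
      F (fun _ => true) = (v : ℝ) → False := by
    intro v hv hvp hvm
    rw [hvp, hvm, sub_self, mul_zero, zero_add] at hid2
    have h16 : 16 < ∑ i, (p i - q i) := by linarith
    obtain ⟨K, hK9, hKP⟩ := select_cd (fun i => p i - q i) (fun i => p i = 1 ∧ q i = -1) hc2
      (by
        intro i hi
        rcases hpv i with h1 | h1 <;> rcases hqv i with h2 | h2
        · rw [h1, h2]; norm_num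
        · exact absurd ⟨h1, h2⟩ hi
        · rw [h1, h2]; norm_num
        · rw [h1, h2]; norm_num) h16
    obtain ⟨z, a, b, hbd, h0, hm, h1, hpp, hineq⟩ :=
      d4_profile hF hdeg K (by omega) v v hvp hvm
    have hsum : ∑ i ∈ K, (p i - q i) = 18 := by
      have : ∀ i ∈ K, p i - q i = 2 := by
        intro i hi
        obtain ⟨h1, h2⟩ := hKP i hi
        rw [h1, h2]
        norm_num
      rw [Finset.sum_congr rfl this, Finset.sum_const, hK9]
      norm_num
    rw [hK9] at hbd h0 hm h1 hpp hineq
    norm_num at hbd h0 hm h1 hpp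
    have hfin := fin_cd z a b (fun k _ => hbd k) (h0.trans hm.symm)
      (by rw [h0]; exact hv) h1 hpp
    have hab : (a : ℝ) + (b : ℝ) ≤ 17 := by exact_mod_cast hfin
    have hineq' : ∑ i ∈ K, (p i - q i) - 2 ≤ 2 * ((a : ℝ) + (b : ℝ)) - 2 * (((9 : ℕ) : ℝ) + 1) :=
      hineq
    rw [hsum] at hineq'
    norm_num at hineq'
    linarith
  rcases hF (fun _ => false) with hvp | hvp <;> rcases hF (fun _ => true) with hvm | hvm
  · exact hcd 1 (Or.inl rfl) (by rw [hvp]; norm_num) (by rw [hvm]; norm_num)
  · -- values `1`, `-1`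
    rw [hvp, hvm] at hid2
    have hle : ∑ i, (p i - q i) ≤ ∑ _i : Fin n, (2 : ℝ) := Finset.sum_le_sum (fun i _ => hc2 i)
    rw [Finset.sum_const, Finset.card_univ, Fintype.card_fin, nsmul_eq_mul] at hle
    linarith
  · -- values `-1`, `1`
    rw [hvp, hvm] at hid2
    set w : Fin n → ℕ := fun i => (if p i = 1 then 1 else 0) + (if q i = -1 then 1 else 0) with hw
    have hw2 : ∀ i, w i ≤ 2 := by
      intro i
      simp only [hw]
      split_ifs <;> norm_num
    have hwr : ∀ i, p i - q i = 2 * (w i : ℝ) - 2 := by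
      intro i
      simp only [hw]
      rcases hpv i with h1 | h1 <;> rcases hqv i with h2 | h2 <;> rw [h1, h2] <;> norm_num
    have hsumw : ∑ i, (p i - q i) = 2 * ((∑ i, w i : ℕ) : ℝ) - 2 * (n : ℝ) := by
      rw [Finset.sum_congr rfl (fun i _ => hwr i), Finset.sum_sub_distrib, ← Finset.mul_sum,
        Finset.sum_const, Finset.card_univ, Fintype.card_fin, nsmul_eq_mul]
      push_cast
      ring
    have h14 : (14 : ℝ) < ((∑ i, w i : ℕ) : ℝ) := by
      rw [hsumw] at hid2
      linarith
    have h15 : 15 ≤ ∑ i, w i := by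
      have : 14 < ∑ i, w i := by exact_mod_cast h14
      omega
    obtain ⟨K, hK8, hK15, hKw⟩ := select_b w hw2 h15
    obtain ⟨z, a, b, hbd, h0, hm, h1, hpp, hineq⟩ :=
      d4_profile hF hdeg K (by omega) (-1) 1 (by rw [hvp]; norm_num) (by rw [hvm]; norm_num)
    have hfin := fin_b (K.card + 1) (by omega) (by omega) z a b (fun k _ => hbd k) h0 hm h1 hpp
    have hab : (a : ℝ) + (b : ℝ) ≤ 14 := by exact_mod_cast hfin
    have hsumK : ∑ i ∈ K, (p i - q i) = 2 * ((∑ i ∈ K, w i : ℕ) : ℝ) - 2 * (K.card : ℝ) := by
      rw [Finset.sum_congr rfl (fun i _ => hwr i), Finset.sum_sub_distrib, ← Finset.mul_sum,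
        Finset.sum_const, nsmul_eq_mul]
      push_cast
      ring
    have hKw' : (15 : ℝ) ≤ ((∑ i ∈ K, w i : ℕ) : ℝ) := by exact_mod_cast hKw
    have hineq' : ∑ i ∈ K, (p i - q i) - 2 ≤ 2 * ((a : ℝ) + (b : ℝ)) - 2 * ((K.card : ℝ) + 1) :=
      hineq
    rw [hsumK] at hineq'
    linarith
  · exact hcd (-1) (Or.inr rfl) (by rw [hvp]; norm_num) (by rw [hvm]; norm_num)

/-- **The Gopalan-Servedio inequality in degree four**: a Boolean function on the cube whose
Fourier coefficients vanish above level `4` has `∑_i |f^({i})| ≤ 2`. -/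
theorem sum_abs_fhat_le_two {n : ℕ} (f : (Fin n → Bool) → Bool)
    (hdeg : ∀ S : Finset (Fin n), 4 < S.card → fhat f S = 0) :
    ∑ i : Fin n, |fhat f {i}| ≤ 2 := by
  classical
  set z : Fin n → Bool := fun i => decide (fhat f {i} < 0) with hz
  set G : (Fin n → Bool) → ℝ := fun x => bsign (f (flipCube z x)) with hG
  have hGval : ∀ x, G x = 1 ∨ G x = -1 := by
    intro x
    simp only [hG]
    cases f (flipCube z x) <;> simp
  have hGcoef : ∀ S : Finset (Fin n), coef G S = (∏ i ∈ S, bsign (z i)) * fhat f S := by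
    intro S
    rw [fhat_eq_coef]
    exact coef_flip (fun x => bsign (f x)) z S
  have hGdeg : ∀ S : Finset (Fin n), 4 < S.card → coef G S = 0 := by
    intro S hS
    rw [hGcoef, hdeg S hS, mul_zero]
  have hsum : ∑ i : Fin n, |fhat f {i}| = ∑ i : Fin n, coef G {i} := by
    apply Finset.sum_congr rfl
    intro i _
    rw [hGcoef, Finset.prod_singleton]
    by_cases h : fhat f {i} < 0
    · have hzi : z i = true := by simp [hz, h]
      rw [hzi, abs_of_neg h]
      simp
    · have hzi : z i = false := by simp [hz, h]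
      rw [hzi, abs_of_nonneg (not_lt.mp h)]
      simp
  rw [hsum]
  exact deg4_core hGval hGdeg

end Vale.Agent.H39
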