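import Vale.Agent.H39.D4.GenFun

/-!
TASK D4-PARAM (proved; helper lemmas in this file have names starting `prm_`).
Black box: `genfun` (GenFun.lean).

If `G` has degree at most `4` on `m ≥ 4` variables, its layer sums are the coefficients of the
product of `Q` with the power `m - 4` of `1 + t`, for a real polynomial
`Q = e₀ + e₁ t + ... + e₄ t⁴`:  `layer G k = ∑_{i ≤ min(k,4)} e_i * C(m-4, k-i)`.

Proof (polynomials over `ℝ`).
* `prm_A G = ∑ x, C (G x) * X ^ hw x` has `k`-th coefficient `layer G k` and value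
  `∑ x, t^hw x * G x` at `t`.
* `prm_Q G` is the sum over the sets `S` with at most four elements of `coef G S` times the
  product of the power `S.card` of `1 - X` and the power `4 - S.card` of `1 + X`; its degree is
  at most four, and `e i` is its `i`-th coefficient.
* The two polynomials `prm_A G` and the product of `prm_Q G` with the power `m - 4` of `1 + X`
  take the same value at every real `t` (`genfun` and `hdeg`), hence are equal.
* Comparing coefficients of index `k` (`Polynomial.coeff_mul`, `Polynomial.coeff_one_add_X_pow`)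
  and re-indexing the antidiagonal sum gives the formula.
-/

namespace Vale.Agent.H39

open Polynomial

/-- The generating polynomial of the layer sums. -/
noncomputable def prm_A {m : ℕ} (G : (Fin m → Bool) → ℝ) : ℝ[X] :=
  ∑ x : Fin m → Bool, C (G x) * X ^ hw x

/-- The cofactor of degree at most four. -/
noncomputable def prm_Q {m : ℕ} (G : (Fin m → Bool) → ℝ) : ℝ[X] :=
  ∑ S : Finset (Fin m),
    if S.card ≤ 4 then C (coef G S) * ((1 - X) ^ S.card * (1 + X) ^ (4 - S.card)) else 0

lemma prm_A_coeff {m : ℕ} (G : (Fin m → Bool) → ℝ) (k : ℕ) :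
    (prm_A G).coeff k = layer G k := by
  unfold prm_A layer
  rw [Polynomial.finsetSum_coeff]
  refine Finset.sum_congr rfl fun x _ => ?_
  rw [Polynomial.coeff_C_mul_X_pow]
  by_cases h : hw x = k
  · rw [if_pos h, if_pos h.symm]
  · rw [if_neg h, if_neg (fun h' => h h'.symm)]

lemma prm_A_eval {m : ℕ} (G : (Fin m → Bool) → ℝ) (t : ℝ) :
    (prm_A G).eval t = ∑ x : Fin m → Bool, t ^ hw x * G x := by
  unfold prm_A
  rw [Polynomial.eval_finsetSum]
  refine Finset.sum_congr rfl fun x _ => ?_
  rw [eval_mul, eval_C, eval_pow, eval_X, mul_comm]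

lemma prm_Q_natDegree {m : ℕ} (G : (Fin m → Bool) → ℝ) : (prm_Q G).natDegree ≤ 4 := by
  unfold prm_Q
  refine Polynomial.natDegree_sum_le_of_forall_le _ _ fun S _ => ?_
  split_ifs with h
  · have h1 : (1 - X : ℝ[X]).natDegree ≤ 1 := (natDegree_sub_le _ _).trans (by simp)
    have h2 : (1 + X : ℝ[X]).natDegree ≤ 1 := (natDegree_add_le _ _).trans (by simp)
    calc (C (coef G S) * ((1 - X) ^ S.card * (1 + X) ^ (4 - S.card))).natDegree
        ≤ ((1 - X : ℝ[X]) ^ S.card * (1 + X) ^ (4 - S.card)).natDegree :=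
          natDegree_C_mul_le _ _
      _ ≤ ((1 - X : ℝ[X]) ^ S.card).natDegree + ((1 + X : ℝ[X]) ^ (4 - S.card)).natDegree :=
          natDegree_mul_le
      _ ≤ S.card * 1 + (4 - S.card) * 1 :=
          add_le_add (natDegree_pow_le.trans (Nat.mul_le_mul_left _ h1))
            (natDegree_pow_le.trans (Nat.mul_le_mul_left _ h2))
      _ = 4 := by omega
  · simp

lemma prm_eval_eq {m : ℕ} (hm : 4 ≤ m) (G : (Fin m → Bool) → ℝ)
    (hdeg : ∀ S : Finset (Fin m), 4 < S.card → coef G S = 0) (t : ℝ) :
    (prm_A G).eval t = ((1 + X) ^ (m - 4) * prm_Q G).eval t := by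
  rw [prm_A_eval, genfun, Polynomial.eval_mul]
  unfold prm_Q
  rw [Polynomial.eval_finsetSum, Finset.mul_sum]
  refine Finset.sum_congr rfl fun S _ => ?_
  by_cases h : S.card ≤ 4
  · rw [if_pos h]
    have e : m - S.card = (m - 4) + (4 - S.card) := by omega
    simp only [eval_mul, eval_pow, eval_add, eval_sub, eval_one, eval_X, eval_C]
    rw [e, pow_add]
    ring
  · rw [if_neg h, hdeg S (by omega)]
    simp

theorem layer_param {m : ℕ} (hm : 4 ≤ m) (G : (Fin m → Bool) → ℝ)
    (hdeg : ∀ S : Finset (Fin m), 4 < S.card → coef G S = 0) :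
    ∃ e : Fin 5 → ℝ, ∀ k : ℕ,
      layer G k = ∑ i : Fin 5, e i *
        (if (i : ℕ) ≤ k then (((m - 4).choose (k - (i : ℕ)) : ℕ) : ℝ) else 0) := by
  have hA : prm_A G = (1 + X) ^ (m - 4) * prm_Q G :=
    Polynomial.funext (prm_eval_eq hm G hdeg)
  refine ⟨fun i => (prm_Q G).coeff i, fun k => ?_⟩
  rw [← prm_A_coeff, hA, mul_comm, Polynomial.coeff_mul,
    Finset.Nat.sum_antidiagonal_eq_sum_range_succ_mk]
  rw [Fin.sum_univ_eq_sum_range (fun i => (prm_Q G).coeff i *
    (if i ≤ k then (((m - 4).choose (k - i) : ℕ) : ℝ) else 0)) 5]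
  have h1 : ∑ i ∈ Finset.range k.succ,
        (prm_Q G).coeff i * ((1 + X : ℝ[X]) ^ (m - 4)).coeff (k - i)
      = ∑ i ∈ Finset.range (k + 6), (prm_Q G).coeff i *
          (if i ≤ k then (((m - 4).choose (k - i) : ℕ) : ℝ) else 0) := by
    have hsub : Finset.range k.succ ⊆ Finset.range (k + 6) := by
      intro i hi
      rw [Finset.mem_range] at hi ⊢
      omega
    rw [← Finset.sum_subset hsub]
    · refine Finset.sum_congr rfl fun i hi => ?_
      rw [Finset.mem_range] at hi
      rw [if_pos (by omega), Polynomial.coeff_one_add_X_pow]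
    · intro i _ hi
      rw [Finset.mem_range] at hi
      rw [if_neg (by omega), mul_zero]
  have h2 : ∑ i ∈ Finset.range 5, (prm_Q G).coeff i *
          (if i ≤ k then (((m - 4).choose (k - i) : ℕ) : ℝ) else 0)
      = ∑ i ∈ Finset.range (k + 6), (prm_Q G).coeff i *
          (if i ≤ k then (((m - 4).choose (k - i) : ℕ) : ℝ) else 0) := by
    have hsub : Finset.range 5 ⊆ Finset.range (k + 6) := by
      intro i hi
      rw [Finset.mem_range] at hi ⊢
      omega
    refine Finset.sum_subset hsub ?_
    intro i _ hi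
    rw [Finset.mem_range] at hi
    rw [Polynomial.coeff_eq_zero_of_natDegree_lt
      (lt_of_le_of_lt (prm_Q_natDegree G) (by omega)), zero_mul]
  rw [h1, h2]

end Vale.Agent.H39
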